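import Crest.Agent.X212.Wal14.Cx_Mg
import Crest.Agent.X212.Gnk23.Nd
import Crest.Agent.X212.Inv14.Main
import Crest.Agent.X212.Nrm67.Main
import Crest.Agent.X212.Pte3.Dec
import Crest.Agent.X212.Sm25.Lft_Mg
import Crest.Agent.X212.Usf71.End

/-!
# Row 212, GL-WALL-PSC (helper14): the wall from its leaves
-/

set_option autoImplicit false
set_option linter.unusedSectionVars false
noncomputable section
open scoped Manifold ContDiff Topology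
open Set Function Filter

namespace Crest.Agent.X212.Wal14
open An An.Job M Nd18 Mod61 Gj67 Rf65 Pte3 Nk89 Mp86.St Map77
open Rdc90 (Bs PS)

section y
variable {κ lam : Type} [Fintype κ] [Fintype lam] {Y : Mf 3} [CompactSpace Y.M]
  {D : YD Y.I Y.M κ lam} {β β' : YC Y.M κ lam}

theorem ex_par (h : dz D β = 1) : ∃ ξ, ParY D β ξ ∧ ξ ≠ 0 := by
  by_contra! k
  rw [dz, (Submodule.span_eq_bot (s := {ξ | ParY D β ξ})).2 k, finrank_bot] at h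
  exact zero_ne_one h

theorem bs_eqv (H : Bs D β) (h : D.Adm β') (e : D.Eqv β β') : Bs D β' :=
  Inv14.bs_eqv H h H.zr (by
    rwa [show (⟨β.m, β.W, β.Φ, 0⟩ : YC Y.M κ lam) = β from congrArg _ (Subsingleton.elim _ _)])

theorem psc_equiv {V V' : Type} [Fintype V] [DecidableEq V] [Fintype V'] [DecidableEq V']
    {ν : V' → κ → Y.M → ℝ} {ρ : ℝ} (S : Psc D.F ν ρ) (e : V ≃ V') : Psc D.F (fun i => ν (e i)) ρ :=
  ⟨S.pos, fun _ => S.sm _, fun _ => S.P _, fun _ => S.par _, fun i j x => by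
    simp only [S.ort, e.apply_eq_iff_eq], fun b l x => by
    rw [S.ric, ← e.sum_comp], S.sc⟩

end y

variable {Wi : Type} {X : Mf 4} {A κ lam : Type} [Fintype A] [Fintype κ] [Fintype lam]
  [DecidableEq lam] {M : Mark X A κ} {W : World M} {L : ML M lam} {Λ : Lns W L}
  {A' h : Type} [Fintype A'] [DecidableEq A'] [Fintype h] {r n : ℕ}
  {J : Job Wi Λ A' h r n} {σ : Cel A'}

theorem Cx.θ {c : M.Cl} {q δ} {y : J.Obc c} {x} {p : Prt A A' h} {b : Bp J c} {V : Type}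
    [Fintype V] [DecidableEq V] {E : EC b p V δ} {z ψ} (H : Cx σ q y x E z ψ) :
    b.θ p V z.t = y.s := funext fun a => by
  have hy := H.sol
  by_cases k : a ∈ p.V
  · exact (θ_V k).trans (H.ch.rep.s ⟨a, k⟩)
  rw [θ_off k]
  cases e : σ a with
  | some v => exact (H.cs.hb.1.1 a v e).trans (hy.cell.1 a v e).symm
  | none =>
    obtain ⟨z, h1, h2⟩ : ∃ z, J.hd a = some z ∧ z ∈ c.1 := by
      by_contra f
      exact k (H.hV a e fun z h1 h2 => f ⟨z, h1, h2⟩)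
    obtain ⟨a1, k1, k2⟩ := H.cs.ok.inf σ H.cs.mem _ H.cs.hb.1 z (H.cs.hb.2.ge h2)
    obtain ⟨a2, k3, k4⟩ := H.cs.ok.inf σ H.cs.mem _ hy.ov.1 z (hy.inf.ge h2)
    obtain rfl := H.cs.ok.inj _ _ z k1 h1
    obtain rfl := H.cs.ok.inj _ _ z k3 h1
    exact k2.trans k4.symm

theorem wallS (zl : ZlStmt κ (lam ⊕ lam)) (row : RowL J) (zn : ZnL J) (a : A') : Loc8.WallS J a := by
  classical
  intro hJ pj hc
  by_cases ne : ∃ x, x ∈ cylW (J.cf a)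
  swap
  · exact ⟨1, one_pos, fun δ _ sh σ n₀ _ _ _ _ _ q y x _ fa =>
      (ne ⟨x, fa.1.2.1.ge rfl, fa.1.2.2.1⟩).elim⟩
  obtain ⟨x₀, hx₀⟩ := ne
  obtain ⟨m, py, hm⟩ : ∃ m, PY (J.xs x₀).D m ∧ (m = 0 ∨ ∀ x, Nl J x) :=
    hc.elim (fun k => ⟨0, k _ hx₀, .inl rfl⟩) fun k => (pj.py _ hx₀).imp fun _ e => ⟨e, .inr k⟩
  obtain ⟨ν₀, ρ, S⟩ := py.psc
  obtain ⟨c₀, c0, ps⟩ := py.ps
  have : Subsingleton (Fin m) := Fin.subsingleton_iff_le_one.2 py.b1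
  obtain ⟨δZ, z0, zl⟩ := zl ρ S.pos c₀ c0
  obtain ⟨δD, d0, dec⟩ := Pte3.dec J _ hJ pj
  obtain ⟨e, e0, dg⟩ := Nkp12.dgW pj
  have le : ∀ {c : ℝ}, 0 < c → ∀ᶠ t in 𝓝[>] (0 : ℝ), t ≤ c := fun hc =>
    (ge_mem_nhds hc).filter_mono nhdsWithin_le_nhds
  obtain ⟨δ₁, e1, e2, e3, e4, e5, e6, e7⟩ := (eventually_mem_nhdsWithin.and ((le z0).and
    ((le (half_pos d0)).and ((le (half_pos e0)).and
    ((le (by positivity : (0 : ℝ) < 1 / 32)).and ((le (div_pos Cht98.dl0_pos four_pos)).and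
    (eventually_all.2 fun z =>
      le (div_pos (hJ.xs z).2.δ0 (by positivity : (0 : ℝ) < 5))))))))).exists
  refine ⟨δ₁, e1, fun δ hδ sh σ n₀ hs H nW nΛ ha q y x hy fa rg unc _ h1 h2 int => ?_⟩
  obtain ⟨b, E, z, ψ, g, rg⟩ := rg
  have fr : σ a = none := (Finset.mem_filter.1 ha).2.1
  obtain ⟨C, zz⟩ := cx_of H hs fr hy fa unc h1 h2 g rg
  obtain rfl : x₀ = x := fa.1.2.1.le hx₀.1
  have o := (hJ.xs x₀).1.yd
  have wl := H.wl x₀ _ m o (pj.nil _ hx₀).1 py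
  have b1 := wl.1 _ (hy.crit _ hx₀ true)
  have sV : ∀ {V : Type} {μ : Ed (J.cf a) → Option V}, (∀ v i, μ i = some v) → Subsingleton V :=
    fun k => ⟨fun u v => Option.some.inj ((k u (⟨_, hx₀⟩, true)).symm.trans (k v _))⟩
  have cV : Fintype.card (UU {hp x₀ true, hp x₀ false} (zw J (J.cf a)) (cylW (J.cf a))) = m := by
    rcases Nat.le_one_iff_eq_zero_or_eq_one.1 py.b1 with rfl | rfl
    · refine Fintype.card_eq_zero_iff.2 ⟨fun ⟨_, ⟨⟨w, hw⟩, s⟩, _, k, _⟩ => k fun β hβ => ?_⟩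
      obtain rfl : w = x₀ := fa.1.2.1.le hw.1
      exact (wl.2.1 β hβ).1.trans (zero_mul _)
    · refine le_antisymm (Fintype.card_le_one_iff_subsingleton.2 (sV C.mu)) ?_
      refine Fintype.card_pos_iff.2 ⟨⟨_, (⟨_, hx₀⟩, true), ed_mem fa.1.2.1 _, fun k => ?_, rfl⟩⟩
      have := (wl.2.1 _ b1).1
      rw [k _ b1, h1] at this
      exact zero_ne_one this
  suffices ∀ (V : Type) [Fintype V] [DecidableEq V] (p : Prt A A' h) (b : Bp J (J.cf a))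
      (E : EC b p V δ) z ψ, Cx σ q y x₀ E z ψ → Fintype.card V = m →
      ∃ (U Up R : FD) (d : Dat J σ a U.V Up.V R.V) (δ' : ℝ), Job.Iso d.y y ∧ d.Wall q δ' 8 from
    this _ _ b E z ψ C cV
  clear C cV g rg zz h2 ψ z E b
  intro V _ _ p b E z ψ C cV
  replace sV := sV C.mu
  have em' : ∀ i, i ∈ EdP (J.cf a) p.P := fun i => C.P ▸ ed_mem fa.1.2.1 i
  let ev : V ≃ Fin m := Fintype.equivFinOfCardEq cV
  obtain ⟨tz, -, tp⟩ := fa.1.2.2.2.2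
  obtain ⟨d, iso, nul, Hd, R6, rfl, eq⟩ := Nrm67.nrm J σ a x₀ q δ y ⟨hJ, nW, nΛ, H.mem, fr, hx₀.1,
    hx₀.2, unc, hy, fa.1.2.2.2.1, ⟨tz, tp⟩, int, hδ.1,
    ⟨by linarith [hδ.2], fun z => by linarith [hδ.2, e7 z, (hJ.xs z).2.δ0]⟩, fun s k =>
      ((dec σ _ q y H.mem C.ph.pok C.se.toSolOn).2 (⟨_, hx₀⟩, s) (em' _) k).imp
        fun _ k => ⟨by linarith [hδ.2, k.1], k.2⟩, hδ.2.trans e5⟩ ⟨V → ℝ⟩ ⟨V → ℝ⟩ ⟨ℝ⟩
  have b2 := wl.1 _ Hd.crit.self_of_nhds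
  have h3 : dz d.D (d.β 0) = 1 :=
    (wl.2.2.1 _ _ (wl.1 _ (hy.crit _ hx₀ false)) b2 eq).symm.trans (C.dz (⟨_, hx₀⟩, false))
  have S' := psc_equiv S ev
  have P : ∀ {ξ}, ParY d.D (d.β 0) ξ → ξ ≠ 0 → Pw (V := V) d δ (fun i => ν₀ (ev i)) ξ q :=
    fun pξ nξ => ⟨Hd, nul, R6, pj.nil _ hx₀, hm.imp_left fun k => Fintype.card_eq_zero_iff.1
      (cV.trans k), sV, ⟨_, S'⟩, ⟨_, c0, ps⟩, b2, h3, pξ, nξ⟩
  have eθ := C.θ.trans iso.1.symm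
  obtain ⟨ξ₀, pξ₀, nξ₀⟩ := ex_par h3
  obtain ⟨ξ, pξ, nξ, mv⟩ := Gnk23.mvL (Sm25.Lft.slc _ _) σ a V d q δ _ ξ₀ y p b E z ψ (P pξ₀ nξ₀) iso C eθ
  replace P := P pξ nξ
  have δZ' : δ ∈ Ioc 0 δZ := ⟨hδ.1, hδ.2.trans e2⟩
  obtain ⟨η₀, p0, z1⟩ := zl δ δZ' _ _ V _ _ ξ S' ps b2 h3 pξ nξ
  have z2 : ∀ i : Ed (J.cf a), ∃ η₀ > 0, ∀ η ∈ Ioc 0 η₀, ZE (J.xs i.1).D
      ((en E i).sl E.o (E.R + 1) z.t) ((en E i).O' E.R) 9 8 δ η := fun ⟨⟨w, hw⟩, s⟩ => by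
    obtain rfl : w = d.x := fa.1.2.1.le hw.1
    have m := em' (⟨_, hw⟩, s)
    have a1 := Sym93.adm_sl C.cs (⟨_, hw⟩, s) z.ht
    obtain ⟨a2, a3⟩ := Sym93.lim_eqv C.cs C.se.toSolOn C.ch.rep m
    have a4 := bs_eqv (wl.1 _ (hy.crit _ hw s)) a1 (Gnk23.eqv_symm o a1 a2 a3)
    have a5 := (Sym93.dz_sl C.cs C.se.toSolOn C.ch.rep m).trans (C.dz _)
    obtain ⟨ξ, pξ, nξ⟩ := ex_par a5
    have a6 : (en E (⟨_, hw⟩, s)).O' E.R = univ ∨ (en E (⟨_, hw⟩, s)).O' E.R = ∅ :=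
      (em _).imp (fun k => eq_univ_of_forall fun _ => k) fun k => eq_empty_of_forall_notMem fun _ => k
    exact (zl δ δZ' _ _ _ _ _ ξ S ps a4 a5 pξ nξ).imp fun _ k => ⟨k.1, fun η hη =>
      Sm25.Lft.lft _ _ _ _ _ _ 8 _ _ _ py a4 a6 ((k.2 η hη).1 _ a6)⟩
  choose η₁ p1 z2 using z2
  obtain ⟨η, f0, f1, f2, f3⟩ := (eventually_mem_nhdsWithin.and ((le p0).and ((le hδ.1).and
    (eventually_all.2 fun i => le (p1 i))))).exists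
  obtain ⟨cmp, dS⟩ := Wc.cmpY σ a ⟨V → ℝ⟩ ⟨V → ℝ⟩ ⟨ℝ⟩ d q δ _ V b z.t Hd R6 C.cs.toPG C.cs.hb z.ht eθ
  obtain ⟨bS, c1, c2, H'⟩ := row σ a V d q δ _ ξ P
  replace H' := H' η _ dS
  have cb : ∀ i, d.FS.F0.Cb ((J.G _ d.y.s).F.D i (gS d δ η)) := fun i => by
    have := Sob92.Cb_sub (H'.okS.cd i) (dS i).1
    rw [show (J.G _ d.y.s).F.D i (gS d δ η) = (fun w => dSY b p V δ z.t i w +
      (J.G _ d.y.s).F.D i (gS d δ η) w) - dSY b p V δ z.t i from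
        funext fun _ => (add_sub_cancel_left _ _).symm]
    exact this
  have k7 : 7 ≤ 8 := by norm_num
  have lo := Rad94.lowL J σ _ V q δ y _ _ b E z ψ C η _ (Usf71.usf _) (Rad94.injAt _) (dr_gS Hd C.cs f0 f2 fun i =>
    eθ ▸ cmp.Cb_iff.1 (Gl67.Sid.wtP.Cb.2 (cb i))) fun i => z2 i η ⟨f0, f3 i⟩
  rw [eθ] at lo
  have iS := Is.trsL J σ a V _ q δ y p b E z ψ _ H' (Gla92.oke H' k7) (Lpe67.lipS H' k7) iso C eθ cmp cb rfl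
    rfl rfl (mv bS c1 c2) lo
  exact ⟨⟨V → ℝ⟩, ⟨V → ℝ⟩, ⟨ℝ⟩, rows d δ η _ ξ bS _, δ, iso, H', iS,
    zn σ a V d q δ η _ ξ bS _ P H' (z1 η ⟨f0, f1⟩).2,
    dg σ V d q δ η _ ξ bS _ y p b E z ψ (by linarith [hδ.2]) P H' iS iso C fa.2.1,
    by simp [add_comm]⟩

end Crest.Agent.X212.Wal14
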